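import Mathlib

/-!
P038: definitions for the proof of Seymour's second neighbourhood conjecture (note 23117).
`R` is the closed adjacency relation: `R a b` iff `a = b` or `a → b`.
-/

namespace Vale.Agent.P038.SNC

open Finset Classical

variable {V : Type*} [Fintype V]

/-- closed out-neighbourhood of a set -/
noncomputable def N (R : V → V → Prop) (X : Finset V) : Finset V :=
  univ.filter fun v => ∃ x ∈ X, R x v

/-- `|N[X]| - |X|` -/
noncomputable def c (R : V → V → Prop) (X : Finset V) : ℤ := ((N R X).card : ℤ) - X.card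

/-- total cost of a pair of families -/
noncomputable def cost (R : V → V → Prop) (U W : V → Finset V) : ℤ :=
  ∑ a, c R (U a) + ∑ a, c R (W a)

/-- inner pairs -/
def Inner (R : V → V → Prop) (Y Z : V → Finset V) : Prop :=
  (∀ a, a ∈ Y a) ∧ (∀ a, a ∈ Z a) ∧ ∀ a x, x ∈ N R (Y a) → a ∈ N R (Z x) → a = x

/-- outer pairs -/
def Outer (R : V → V → Prop) (U W : V → Finset V) : Prop :=
  (∀ a v, R a v → v ∈ U a) ∧ (∀ a v, R a v → v ∈ W a) ∧ ∀ a x, x ∈ U a → a ∈ W x → a = x

/-- the gap -/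
def Gp (U W : V → Finset V) (a x : V) : Prop := x ∉ U a ∧ a ∉ W x

/-- `C = VG \ VW` -/
def Cp (R : V → V → Prop) (U W : V → Finset V) (a' x : V) : Prop :=
  (∃ a, R a a' ∧ Gp U W a x) ∧ a' ∉ N R (W x)

/-- `B = HG \ HU` -/
def Bp (R : V → V → Prop) (U W : V → Finset V) (a x' : V) : Prop :=
  (∃ x, R x x' ∧ Gp U W a x) ∧ x' ∉ N R (U a)

/-- `R0` -/
def R0 (R : V → V → Prop) (U W : V → Finset V) (a' x' : V) : Prop :=
  (∃ a, R a a' ∧ Bp R U W a x') ∧ (∃ x, R x x' ∧ Cp R U W a' x)

/-- row optimality -/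
def RowOpt (R : V → V → Prop) (U W : V → Finset V) : Prop :=
  ∀ a (S : Finset V), (∀ x ∈ S, Gp U W a x) → S.card ≤ (N R S \ N R (U a)).card

/-- number of pairs satisfying a relation -/
noncomputable def cnt (P : V → V → Prop) : ℕ := ∑ a, (univ.filter fun x => P a x).card

/-- ROW (A): 294's (G), unweighted, arc-minimal. `A` is the arc relation. -/
noncomputable def Second (A : V → V → Prop) (v : V) : Finset V :=
  univ.filter fun w => w ≠ v ∧ ¬ A v w ∧ ∃ u, A v u ∧ A u w

end Vale.Agent.P038.SNC
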